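import Mathlib
import Vale.Agent.Lib.P346.Params

/-!
Exponential lower bound for syntactically homogeneous depth-five circuits computing
`IMM_{n,n}` over finite fields.
-/

/-- Over every finite field `K` with `q` elements: if `(10 ^ 12 * q ^ 2 * (τ + 4)) ^ 10 ≤ n`, then
every syntactically homogeneous `ΣΠΣΠΣ` circuit computing `IMM_{n,n}` has at least `2 ^ τ` gates.
So the minimal size is at least `2 ^ (n ^ (1 / 10) / (10 ^ 12 * q ^ 2) - 5)`. -/
theorem Vale.Agent.Results.P346.ImmExpLowerBound.result {K : Type*} [Field K] [Fintype K]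
    (n τ : ℕ) [NeZero n] (h : (10 ^ 12 * (Fintype.card K) ^ 2 * (τ + 4)) ^ 10 ≤ n)
    (C : Vale.Agent.Lib.P346.Circuit K (Fin n × Fin n × Fin n)) (hC : C.IsSynHomog)
    (hout : C.output = Vale.Agent.Lib.P346.imm K n n) :
    2 ^ τ ≤ C.size :=
  Vale.Agent.Lib.P346.imm_lower_bound n τ h C hC hout
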