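import Mathlib
import Vale.Agent.Lib.P346.Params3

/-!
Lower bound `exp(n ^ (1 / 2) / (q ^ 4 log ^ 2 n))` for syntactically homogeneous depth-five circuits
computing `IMM_{n,n}` over finite fields.
-/

/-- Over every finite field `K` with `q` elements: if
`(200 * (log₂ n + 5) ^ 2 * q ^ 4 * (τ + 3)) ^ 2 ≤ n`, then every syntactically homogeneous `ΣΠΣΠΣ`
circuit computing `IMM_{n,n}` has at least `2 ^ τ` gates. So the minimal size is at least
`2 ^ (n ^ (1 / 2) / (200 * q ^ 4 * (log₂ n + 5) ^ 2) - 4)`. -/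
theorem Vale.Agent.Results.P346.ImmSqrtBound.result {K : Type*} [Field K] [Fintype K]
    (n τ : ℕ) [NeZero n]
    (h : (200 * (Nat.log 2 n + 5) ^ 2 * (Fintype.card K) ^ 4 * (τ + 3)) ^ 2 ≤ n)
    (C : Vale.Agent.Lib.P346.Circuit K (Fin n × Fin n × Fin n)) (hC : C.IsSynHomog)
    (hout : C.output = Vale.Agent.Lib.P346.imm K n n) :
    2 ^ τ ≤ C.size :=
  Vale.Agent.Lib.P346.S.imm_sqrt_bound n τ h C hC hout
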